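import Crest.Agent.N250.Lp.Defs
import Crest.Agent.N250.Cj.Pol
import Crest.Agent.N250.Gc.Gr
import Crest.Agent.N250.Wt.Cx

/-!
# Row 250 (helper27): the Jacobi operator in the polar chart is `linEL`
-/

set_option autoImplicit false
open Set Filter Topology
open scoped ContDiff ComplexConjugate

noncomputable section

namespace Crest.Agent.N250.Lp

open Crest.Agent.N222 Gc Po WS Cj

variable {X : Type} [TopologicalSpace X] [MeasurableSpace X] {G : Geo X}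

/-! ### locality and the first variation -/

theorem D_ev {f g : G.SmC} {p : X} (h : f.1 =ᶠ[𝓝 p] g.1) (a : Fin 3) :
    (G.SC.D a f).1 =ᶠ[𝓝 p] (G.SC.D a g).1 :=
  h.eventually_nhds.mono fun y hy => by rw [D_apply, D_apply, Imm.td_congr hy]

theorem LL_val (f : G.SmC) (p : X) : 2 * (G.SC.LL f).1 p =
    2 * ∑ a, (G.SC.D a (G.SC.D a f)).1 p - ∑ a, (G.SC.x a).1 p * (G.SC.D a f).1 p + f.1 p +
      2 * G.SC.a2.1 p * f.1 p := by
  have := congrArg (ev G p) (Mov.two_LL G.SC f)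
  simp only [Pre.lap, Mov.dr, map_add, map_sub, map_mul, map_sum, map_ofNat] at this
  exact this

theorem LL_congr {f g : G.SmC} {p : X} (h : f.1 =ᶠ[𝓝 p] g.1) :
    (G.SC.LL f).1 p = (G.SC.LL g).1 p := by
  refine mul_left_cancel₀ (two_ne_zero (α := ℂ)) ?_
  simp only [LL_val, h.self_of_nhds, (D_ev h _).self_of_nhds, (D_ev (D_ev h _) _).self_of_nhds]

theorem HD_line (a b : ℂ) : HD ℂ (fun s : ℂ => a + s * b) 0 fun w => w * b :=
  (HD.of (((hasDerivAt_id (0 : ℂ)).mul_const b).const_add a).hasFDerivAt).congr fun w => by simp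

/-- the derivative of `ELX` at the shrinker -/
theorem hasDerivAt_ELX (V : Fin 3 → G.SmC) (p : X) :
    HasDerivAt (fun s : ℂ => (G.SC.ELX fun c => G.SC.x c + s • V c).1 p)
      (-(2 * (G.SC.LL (dot V G.SC.n)).1 p)) 0 := by
  have h := HD.EL (𝕜 := ℂ) (z := (0 : ℂ)) (nC G p)
    (J := fun s a c => JC G.SC.x p a c + s * JC V p a c) (J' := fun w a c => w * JC V p a c)
    (K := fun s a b c => KC G.SC.x p a b c + s * KC V p a b c)
    (K' := fun w a b c => w * KC V p a b c)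
    (x := fun s c => val G.SC.x p c + s * val V p c) (x' := fun w c => w * val V p c)
    (fun _ _ => HD_line _ _) (fun _ _ _ => HD_line _ _) fun _ => HD_line _ _
  have e := congrArg (ev G p) (G.hypC.dEL_shr G.shrC V)
  rw [map_dEL, ← G.hypC.Jm_x, ← G.hypC.Km_x, map_neg, map_mul, map_ofNat] at e
  have h1 := h.diff.hasDerivAt
  rw [← fderiv_apply_one_eq_deriv, h.eq] at h1
  simp only [zero_mul, add_zero, one_mul] at h1
  have e2 : (fun s : ℂ => (G.SC.ELX fun c => G.SC.x c + s • V c).1 p) = fun s : ℂ =>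
      Gc.EL (nC G p) (fun c => val G.SC.x p c + s * val V p c)
        (fun a c => JC G.SC.x p a c + s * JC V p a c)
        fun a b c => KC G.SC.x p a b c + s * KC V p a b c := by
    funext s
    rw [ELX_val]
    congr 1
    · funext a c
      simp only [JC, G.dsC.add, G.D_smul]; rfl
    · funext a b c
      simp only [KC, G.dsC.add, G.D_smul]; rfl
  rw [e2]
  exact h1.congr_deriv e

/-- a smooth function that is `1 / z` near `z₀` -/
theorem exists_inv {z₀ : ℂ} (h : z₀ ≠ 0) :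
    ∃ g : ℂ → ℂ, ContDiff ℝ ∞ g ∧ ∀ᶠ z in 𝓝 z₀, g z * z = 1 := by
  have h0 : 0 < ‖z₀‖ ^ 2 := by positivity
  have hp : ∀ z : ℂ, 0 < ‖z‖ ^ 2 + expNegInvGlue (‖z₀‖ ^ 2 / 4 - ‖z‖ ^ 2) := fun z => by
    rcases eq_or_ne z 0 with rfl | hz
    · simpa using expNegInvGlue.pos_of_pos (by positivity)
    · exact add_pos_of_pos_of_nonneg (by positivity) (expNegInvGlue.nonneg _)
  have hs : ContDiff ℝ ∞ fun z : ℂ => ‖z‖ ^ 2 := contDiff_norm_sq ℝ
  refine ⟨fun z => (‖z‖ ^ 2 + expNegInvGlue (‖z₀‖ ^ 2 / 4 - ‖z‖ ^ 2))⁻¹ • Complex.conjCLE z,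
    ((hs.add (expNegInvGlue.contDiff.comp (contDiff_const.sub hs))).inv fun z => (hp z).ne').smul
      Complex.conjCLE.contDiff, ?_⟩
  filter_upwards [hs.continuous.continuousAt.eventually
    (lt_mem_nhds (show ‖z₀‖ ^ 2 / 4 < ‖z₀‖ ^ 2 by linarith))] with z hz
  have hz0 : (‖z‖ : ℂ) ≠ 0 := by
    have : 0 < ‖z‖ ^ 2 := by linarith
    exact_mod_cast (pow_ne_zero_iff two_ne_zero).1 this.ne'
  rw [expNegInvGlue.zero_of_nonpos (by linarith), add_zero, Complex.real_smul, mul_assoc,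
    Complex.conjCLE_apply, Complex.conj_mul']
  push_cast
  field_simp

/-! ### the polar chart of the shrinker -/

/-- near `q`, `ψ` is the polar chart of the surface -/
structure Pl (G : Geo X) (ψ : ℝ × ℝ → X) (Q : N222.E (Fin 3) ≃ₗᵢ[ℝ] N222.E (Fin 3))
    (r : ℝ × ℝ → ℝ) (q : ℝ × ℝ) : Prop where
  cont : ∀ᶠ y in 𝓝 q, ContinuousAt ψ y
  sm : ContDiffAt ℝ 2 r q
  pos : 0 < r q
  eq : ∀ᶠ y in 𝓝 q, G.M.x (ψ y) = pX Q r y

/-- `r² / 2` -/
def vS (r : ℝ × ℝ → ℝ) (y : ℝ × ℝ) : ℂ := (r y : ℂ) ^ 2 / 2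

/-- `⟨n, ω⟩` -/
def nom (G : Geo X) (ψ : ℝ × ℝ → X) (Q : N222.E (Fin 3) ≃ₗᵢ[ℝ] N222.E (Fin 3)) (y : ℝ × ℝ) : ℂ :=
  dot (nC G (ψ y)) (frC (fQ Q) y.2 0 1 0)

/-- `τ = r / ⟨n, ω⟩` -/
def tau (G : Geo X) (ψ : ℝ × ℝ → X) (Q : N222.E (Fin 3) ≃ₗᵢ[ℝ] N222.E (Fin 3)) (r : ℝ × ℝ → ℝ)
    (y : ℝ × ℝ) : ℂ := r y / nom G ψ Q y

/-- the radial field `x - ⟨x, e⟩ e` -/
def Om (G : Geo X) (Q : N222.E (Fin 3) ≃ₗᵢ[ℝ] N222.E (Fin 3)) (c : Fin 3) : G.SmC :=
  G.SC.x c - fQ Q 0 c • ∑ a, fQ Q 0 a • G.SC.x a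

variable {ψ : ℝ × ℝ → X} {Q : N222.E (Fin 3) ≃ₗᵢ[ℝ] N222.E (Fin 3)} {r : ℝ × ℝ → ℝ} {q : ℝ × ℝ}

theorem nom_eq (y : ℝ × ℝ) : nom G ψ Q y = (inner ℝ (nv G (ψ y)) (fr Q y.2 0 1 0) : ℝ) := by
  rw [← dot_cx, cx_fr]; simp only [Complex.ofReal_zero, Complex.ofReal_one]; rfl

theorem val_x (p : X) : val G.SC.x p = cx (G.M.x p) := rfl

theorem dot_frC_right (f : Fin 3 → Fin 3 → ℂ) (θ : ℝ) (u : Fin 3 → ℂ) (b : ℂ) :
    dot u (frC f θ 0 b 0) = b * dot u (frC f θ 0 1 0) := by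
  simp only [dot, frC, Fin.sum_univ_three]; ring

theorem val_Om {p : X} {y : ℝ × ℝ} (h : G.M.x p = pX Q r y) :
    val (Om G Q) p = frC (fQ Q) y.2 0 (r y) 0 := by
  have e : val G.SC.x p = frC (fQ Q) y.2 y.1 (r y) 0 := by
    rw [val_x, h, pX_eq, cx_fr, Complex.ofReal_zero]
  have e0 : fQ Q 0 = frC (fQ Q) y.2 1 0 0 := funext fun i => by simp [frC]
  have e1 : dot (fQ Q 0) (val G.SC.x p) = y.1 := by
    rw [e, e0, (on_fQ Q).dot_frC]; simp
  funext c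
  have e2 : val (Om G Q) p c = val G.SC.x p c - fQ Q 0 c * dot (fQ Q 0) (val G.SC.x p) := by
    change ev G p (Om G Q c) = _
    rw [Om, map_sub, Algebra.smul_def, map_mul, map_sum]
    rfl
  rw [e2, e1, e]
  simp only [frC]; ring

namespace Pl

variable (h : Pl G ψ Q r q)
include h

theorem ev : ∀ᶠ y in 𝓝 q, Pl G ψ Q r y := by
  filter_upwards [h.cont.eventually_nhds, h.sm.eventually (by simp),
    h.sm.continuousAt.eventually (lt_mem_nhds h.pos), h.eq.eventually_nhds] with y h1 h2 h3 h4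
  exact ⟨h1, h2, h3, h4⟩

theorem pm : Pm G ψ q := ⟨h.cont, (contDiffAt_pX h.sm).congr_of_eventuallyEq h.eq⟩

theorem ne : (r q : ℂ) ≠ 0 := by exact_mod_cast h.pos.ne'

theorem pb_x : ∀ᶠ y in 𝓝 q, pb G.SC.x ψ y = pC (fQ Q) (fun y => (r y : ℂ)) y :=
  h.eq.mono fun y hy => by
    rw [pb, val_x, hy, pX_eq, cx_fr, Complex.ofReal_zero]; rfl

theorem pc : Pc G ψ G.SC.x (fQ Q) (fun y => (r y : ℂ)) (vS r) q :=
  ⟨h.pm, on_fQ Q, cd_ofReal h.sm, h.ne, Eventually.of_forall fun _ => rfl, h.pb_x⟩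

theorem cd_vS : ContDiffAt ℝ 2 (vS r) q := ((cd_ofReal h.sm).pow 2).div_const 2

theorem vS_ne : vS r q ≠ 0 := div_ne_zero (pow_ne_zero _ h.ne) two_ne_zero

theorem d1C : d1 (fun y => (r y : ℂ)) q = (d1 r q : ℝ) := congrFun (jet_ofReal h.sm) 1

theorem d2C : d2 (fun y => (r y : ℂ)) q = (d2 r q : ℝ) := congrFun (jet_ofReal h.sm) 2

theorem QC_eq : QC (vS r) q = (r q ^ 2 + (r q * d1 r q) ^ 2 + d2 r q ^ 2 : ℝ) := by
  rw [h.pc.QC_eq, h.d1C, h.d2C]; push_cast; rfl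

theorem QC_ne : QC (vS r) q ≠ 0 := by
  have := h.pos
  rw [h.QC_eq]
  exact_mod_cast (by positivity : 0 < r q ^ 2 + (r q * d1 r q) ^ 2 + d2 r q ^ 2).ne'

theorem sg_sq : Cj.sg G ψ q ^ 2 = QC (vS r) q := by
  rw [← h.pc.G_pol, G.hypC.GX_x]
  exact (mul_one _).symm

theorem sg_ne : Cj.sg G ψ q ≠ 0 := fun e => h.QC_ne (by rw [← h.sg_sq, e]; simp)

/-- the normal in the frame -/
theorem sg_n (V : Fin 3 → ℂ) : Cj.sg G ψ q * dot (nC G (ψ q)) V =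
    dl (fQ Q) * dot (frC (fQ Q) q.2 (r q * d1 r q) (-r q) (d2 r q : ℝ)) V := by
  have := h.pc.dot_N V
  rwa [G.hypC.NX_x, h.pc.v1, h.d1C, h.d2C] at this

theorem sg_nom : Cj.sg G ψ q * nom G ψ Q q = -dl (fQ Q) * r q := by
  rw [nom, h.sg_n, (on_fQ Q).dot_frC]; ring

theorem nom_ne : nom G ψ Q q ≠ 0 := fun e => by
  have := h.sg_nom
  rw [e, mul_zero] at this
  exact mul_ne_zero (neg_ne_zero.2 (on_fQ Q).dl_ne) h.ne this.symm

theorem tau_eq : tau G ψ Q r q = -dl (fQ Q) * Cj.sg G ψ q := by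
  rw [tau, div_eq_iff h.nom_ne]
  linear_combination dl (fQ Q) * h.sg_nom - r q * (on_fQ Q).dl_sq

theorem tau_sq : tau G ψ Q r q ^ 2 = QC (vS r) q := by
  rw [h.tau_eq, mul_pow, neg_sq, (on_fQ Q).dl_sq, one_mul, h.sg_sq]

theorem tau_ne : tau G ψ Q r q ≠ 0 := div_ne_zero h.ne h.nom_ne

/-- the normal in the frame: `τ n = (-r r_x, r, -r_θ)` -/
theorem tau_n (a b c : ℂ) : tau G ψ Q r q * dot (nC G (ψ q)) (frC (fQ Q) q.2 a b c) =
    r q * b - r q * d1 r q * a - d2 r q * c := by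
  have := h.sg_n (frC (fQ Q) q.2 a b c)
  rw [(on_fQ Q).dot_frC] at this
  rw [h.tau_eq]
  linear_combination -dl (fQ Q) * this
    - (r q * (d1 r q : ℝ) * a + -r q * b + (d2 r q : ℝ) * c) * (on_fQ Q).dl_sq

theorem EL_zero : ELj q.1 (jet (vS r) q) = 0 := by
  have := h.pc.EL_pol h.QC_ne
  rw [G.hypC.ELX_x, G.shrC, sub_self] at this
  have h2 : 2 * dl (fQ Q) * (ELC (vS r) q * QC (vS r) q) = 0 := this.symm.trans (mul_zero _)
  simp only [mul_eq_zero, two_ne_zero, (on_fQ Q).dl_ne, h.QC_ne, false_or, or_false] at h2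
  exact h2

/-- radial variations -/
theorem lin_rad (V : Fin 3 → G.SmC) {ρ : ℝ × ℝ → ℂ} (hρ : ContDiffAt ℝ 2 ρ q)
    (hV : ∀ᶠ y in 𝓝 q, pb V ψ y = frC (fQ Q) y.2 0 (ρ y) 0) :
    linEL (vS r) (fun y => r y * ρ y) q = tau G ψ Q r q * (G.SC.LL (dot V G.SC.n)).1 (ψ q) := by
  have hr := cd_ofReal h.sm
  have hd : ContDiffAt ℝ 2 (fun y => (r y : ℂ) * ρ y) q := hr.mul hρ
  have he : ContDiffAt ℝ 2 (fun y => ρ y ^ 2 / 2) q := (hρ.pow 2).div_const 2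
  set J : ℂ → Fin 6 → ℂ := fun s => jet (vS r) q + s • jet (fun y => (r y : ℂ) * ρ y) q +
    s ^ 2 • jet (fun y => ρ y ^ 2 / 2) q with hJ
  have j0 : J 0 = jet (vS r) q := by simp [hJ]
  have dJ : HasDerivAt J (jet (fun y => (r y : ℂ) * ρ y) q) 0 := by
    simpa using (((hasDerivAt_id (0 : ℂ)).smul_const (jet (fun y => (r y : ℂ) * ρ y) q)).const_add
      (jet (vS r) q)).fun_add ((hasDerivAt_pow 2 (0 : ℂ)).smul_const (jet (fun y => ρ y ^ 2 / 2) q))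
  have ej : ∀ s : ℂ, jet (fun y => ((r y : ℂ) + s * ρ y) ^ 2 / 2) q = J s := fun s => by
    rw [hJ]
    simp only
    rw [← jet_smul s hd, ← jet_smul _ he, ← jet_add h.cd_vS (contDiffAt_const.mul hd),
      ← jet_add (h.cd_vS.add (contDiffAt_const.mul hd)) (contDiffAt_const.mul he)]
    exact jet_congr (Eventually.of_forall fun y => by simp only [vS]; ring)
  have dE := hasDerivAt_ELj dJ j0 h.vS_ne h.QC_ne
  have dQ : DifferentiableAt ℂ (fun s => QQj (J s)) 0 :=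
    DifferentiableAt.comp (0 : ℂ) (g := QQj) (by rw [j0]; exact diff_QQj h.vS_ne) dJ.differentiableAt
  have q0 : QQj (J 0) = QC (vS r) q := by rw [j0]; rfl
  have c1 : ContinuousAt (fun s : ℂ => (r q : ℂ) + s * ρ q) 0 := by fun_prop
  have key : (fun s : ℂ => Cj.sg G ψ q ^ 3 * (G.SC.ELX fun c => G.SC.x c + s • V c).1 (ψ q))
      =ᶠ[𝓝 0] fun s => 2 * dl (fQ Q) * (ELj q.1 (J s) * QQj (J s)) := by
    filter_upwards [c1.eventually_ne (y := 0) (by simpa using h.pos.ne'),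
      dQ.continuousAt.eventually_ne (y := 0) (by rw [q0]; exact h.QC_ne)] with s h1 h2
    have hp : Pc G ψ (fun c => G.SC.x c + s • V c) (fQ Q) (fun y => r y + s * ρ y)
        (fun y => ((r y : ℂ) + s * ρ y) ^ 2 / 2) q := by
      refine ⟨h.pm, on_fQ Q, hr.add (contDiffAt_const.mul hρ), h1,
        Eventually.of_forall fun _ => rfl, ?_⟩
      filter_upwards [h.pb_x, hV] with y h3 h4
      funext c
      change pb G.SC.x ψ y c + s * pb V ψ y c = _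
      rw [h3, h4]
      simp only [pC, frC]; ring
    rw [← ej] at h2 ⊢
    exact hp.EL_pol h2
  have u := ((hasDerivAt_ELX V (ψ q)).const_mul (Cj.sg G ψ q ^ 3)).unique
    (((dE.fun_mul dQ.hasDerivAt).const_mul (2 * dl (fQ Q))).congr_of_eventuallyEq key)
  rw [q0, j0, h.EL_zero, ← h.sg_sq] at u
  refine mul_left_cancel₀ (mul_ne_zero two_ne_zero (pow_ne_zero 2 h.sg_ne)) ?_
  rw [h.tau_eq]
  linear_combination -dl (fQ Q) * u - 2 * Cj.sg G ψ q ^ 2 *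
    linEL (vS r) (fun y => r y * ρ y) q * (on_fQ Q).dl_sq

theorem cd_nom : ContDiffAt ℝ 2 (nom G ψ Q) q := by
  have h1 : ContDiffAt ℝ 2 (fun y => (r y : ℂ)⁻¹ * (dot (Om G Q) G.SC.n).1 (ψ y)) q :=
    ((cd_ofReal h.sm).inv h.ne).mul (h.pm.cd (dot (Om G Q) G.SC.n).2)
  refine h1.congr_of_eventuallyEq (h.ev.mono fun y hy => ?_)
  simp only
  rw [dot_val, val_Om hy.eq.self_of_nhds, dot_comm, dot_frC_right, inv_mul_cancel_left₀ hy.ne]
  rfl

theorem cd_tau : ContDiffAt ℝ 2 (tau G ψ Q r) q := 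
  ((cd_ofReal h.sm).mul (h.cd_nom.inv h.nom_ne)).congr_of_eventuallyEq
    (Eventually.of_forall fun _ => div_eq_mul_inv _ _)

/-- **the Jacobi operator in the polar chart** -/
theorem linpol (w : G.SmC) {d : ℝ × ℝ → ℂ}
    (hd : ∀ᶠ y in 𝓝 q, d y = tau G ψ Q r y * w.1 (ψ y)) :
    linEL (vS r) d q = tau G ψ Q r q * (G.SC.LL w).1 (ψ q) := by
  set ν : G.SmC := dot (Om G Q) G.SC.n with hν
  have e1 : ∀ y, Pl G ψ Q r y → ν.1 (ψ y) = r y * nom G ψ Q y := fun y hy => by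
    rw [hν, dot_val, val_Om hy.eq.self_of_nhds, dot_comm, dot_frC_right]; rfl
  obtain ⟨g, hg, hg1⟩ := exists_inv (z₀ := ν.1 (ψ q)) (e1 q h ▸ mul_ne_zero h.ne h.nom_ne)
  set μ : G.SmC := w * ⟨fun p => g (ν.1 p), Imm.Sm.comp ν.2 hg⟩ with hμ
  have e2 : ∀ᶠ p in 𝓝 (ψ q), μ.1 p * ν.1 p = w.1 p :=
    ((G.contC ν).continuousAt.eventually hg1).mono fun p hp => by
      change w.1 p * g (ν.1 p) * ν.1 p = _
      rw [mul_assoc, hp, mul_one]
  have e3 : dot (fun c => μ * Om G Q c) G.SC.n = μ * ν := by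
    simp only [hν, dot, Finset.mul_sum, mul_assoc]
  have := h.lin_rad (fun c => μ * Om G Q c) (ρ := fun y => μ.1 (ψ y) * r y)
    ((h.pm.cd μ.2).mul (cd_ofReal h.sm)) (h.eq.mono fun y hy => funext fun c => by
      change μ.1 (ψ y) * val (Om G Q) (ψ y) c = _
      rw [val_Om hy, smul_frC, mul_zero])
  rw [e3, LL_congr (f := μ * ν) (g := w) e2] at this
  rw [← this]
  refine linEL_congr ?_
  filter_upwards [hd, h.ev, h.cont.self_of_nhds.eventually e2] with y h1 h2 h3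
  rw [h1, ← h3, e1 y h2, tau]
  field_simp [h2.nom_ne]

theorem linpol_zero (w : G.SmC) {d : ℝ × ℝ → ℂ}
    (hd : ∀ᶠ y in 𝓝 q, d y = tau G ψ Q r y * w.1 (ψ y)) :
    linEL (vS r) d q = 0 ↔ (G.SC.LL w).1 (ψ q) = 0 := by
  rw [h.linpol w hd, mul_eq_zero, or_iff_right h.tau_ne]

/-- the form `w ∘ ψ = d / τ` -/
theorem LL_lift (w : G.SmC) {d : ℝ × ℝ → ℂ}
    (hd : ∀ᶠ y in 𝓝 q, w.1 (ψ y) = d y / tau G ψ Q r y) :
    (G.SC.LL w).1 (ψ q) = linEL (vS r) d q / tau G ψ Q r q := by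
  rw [h.linpol w (d := d), mul_div_cancel_left₀ _ h.tau_ne]
  filter_upwards [hd, h.ev] with y h1 h2
  rw [h1, mul_div_cancel₀ _ h2.tau_ne]

end Pl

end Crest.Agent.N250.Lp

end
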