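import Crest.Agent.N250.Lp.St
import Crest.Agent.N250.R0.Leaf

/-!
# Row 250 (helper92): the cut-off rotation fields
-/

set_option autoImplicit false
open MeasureTheory Set Filter Topology
open scoped ContDiff InnerProductSpace
open Crest.GeometryTopology.MCF

noncomputable section

namespace Crest.Agent.N250.Lp

open Po WS Wr EC R0 Gc

theorem JT_add {X : Type} [TopologicalSpace X] [MeasurableSpace X] (G : Geo X)
    (M M' : Fin 3 → Fin 3 → ℂ) : JT G (M + M') = JT G M + JT G M' := by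
  simp only [JT, Pi.add_apply, add_smul, Finset.sum_add_distrib]

theorem JT_smul {X : Type} [TopologicalSpace X] [MeasurableSpace X] (G : Geo X) (c : ℂ)
    (M : Fin 3 → Fin 3 → ℂ) : JT G (c • M) = c • JT G M := by
  simp only [JT, Pi.smul_apply, smul_eq_mul, mul_smul, Finset.smul_sum]

variable {S : Mv} (T : St S) (j : Fin T.p) {q : ℝ × ℝ}

theorem Jh_add (β β' : T.Bt) : Jh T (β + β') = Jh T β + Jh T β' := by
  simp only [Jh, ← Finset.sum_add_distrib, ← mul_add, ← JT_add]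
  refine Finset.sum_congr rfl fun i _ => congrArg (fun M => _ * JT T.G M) ?_
  funext a b
  simp only [tilt, Pi.add_apply]; ring

theorem Jh_smul (c : ℂ) (β : T.Bt) : Jh T (c • β) = c • Jh T β := by
  simp only [Jh, Finset.smul_sum, ← mul_smul_comm, ← JT_smul]
  refine Finset.sum_congr rfl fun i _ => congrArg (fun M => _ * JT T.G M) ?_
  funext a b
  simp only [tilt, Pi.smul_apply, smul_eq_mul]; ring

/-- `Jh` as a linear map -/
def JhL : T.Bt →ₗ[ℂ] T.G.SmC := ⟨⟨Jh T, Jh_add T⟩, Jh_smul T⟩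

@[simp] theorem JhL_apply (β : T.Bt) : JhL T β = Jh T β := rfl

theorem Jh_eq (F : Fa T) (β : T.Bt) : dot (F.D.yy (T.m0 β)) T.G.SC.n = Jh T β := by
  rw [dot_yy]
  exact Finset.sum_congr rfl fun i _ => congrArg (fun M => _ * JT T.G M) (m0_eq _ _)

theorem gC_Jh (β : T.Bt) : T.G.gC (Jh T β) ≠ ⊤ := (pg_Jh T β).gC

/-- `LL` of a cut-off rotation field lives where the cut-off is not constant -/
theorem sp_LL_JT {M : Fin 3 → Fin 3 → ℂ} (hM : ∀ a b, M a b = -M b a) :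
    Sp (Kc T.P j (T.R + -3 / 2) (T.R + -1)) (T.G.SC.LL (T.G.oR (T.χr j) * JT T.G M)) := by
  intro p hp
  by_cases h : p ∈ Kh T.P j (T.R + -3 / 2)
  · have h1 : ((p : E), (0 : ℝ)) ∈ tube T.e j (T.R + -1) :=
      ⟨not_le.1 fun h2 => hp ⟨h, h2⟩, (Kh_tube (R_lt T (by norm_num)) h).2⟩
    have h2 : ∀ᶠ y : S.sl 0 in 𝓝 p, ((y : E), (0 : ℝ)) ∈ tube T.e j (T.R + -1) :=
      ((isOpen_tube j _).preimage (continuous_subtype_val.prodMk continuous_const)).mem_nhds h1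
    rw [LL_congr (g := JT T.G M) (h2.mono fun y hy => ?_), LL_JT hM]
    · rfl
    · change ((T.χr j).1 y : ℂ) * _ = _
      rw [show (T.χr j).1 y = 1 from chi_one (by linarith) hy]
      simp
  · have : Sp (Kh T.P j (T.R + -3 / 2)) (T.G.oR (T.χr j) * JT T.G M) :=
      (sp_chiR (by linarith)).mul_right _
    rw [LL_congr (g := 0) (this.ev closed_Kh h), Mov.LL_zero T.G.dsC]; rfl

theorem sp_LL_Jh (β : T.Bt) :
    Sp (⋃ j, Kc T.P j (T.R + -3 / 2) (T.R + -1)) (T.G.SC.LL (Jh T β)) := fun p hp => by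
  rw [Jh, ← T.G.LLL_apply, map_sum]
  change Cj.ev T.G p _ = 0
  rw [map_sum]
  exact Finset.sum_eq_zero fun i _ =>
    sp_LL_JT T i (tilt_skew _ _) p fun h => hp (mem_iUnion.2 ⟨i, h⟩)

theorem cs_LL_Jh (β : T.Bt) : HasCompactSupport (T.G.SC.LL (Jh T β)).1 :=
  HasCompactSupport.intro (isCompact_iUnion fun _ => compact_Kc) (sp_LL_Jh T β)

theorem gC_LL_Jh (β : T.Bt) : T.G.gC (T.G.SC.LL (Jh T β)) ≠ ⊤ :=
  (Geo.pg_cpt (T.G.SC.LL (Jh T β)).2.continuous (cs_LL_Jh T β)).gC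

theorem ze_LL_Jh {a b : ℝ} (ha : -1 ≤ a) (hab : a < b) (β : T.Bt) :
    T.G.oR (T.ze a b) * T.G.SC.LL (Jh T β) = T.G.SC.LL (Jh T β) := T.G.extC fun p => by
  change ((T.ze a b).1 p : ℂ) * _ = _
  by_cases hp : p ∈ ⋃ j, Kc T.P j (T.R + -3 / 2) (T.R + -1)
  · obtain ⟨i, hi⟩ := mem_iUnion.1 hp
    rw [ze_tube T i (by linarith) hab (R_lt T (by norm_num)) hi.1,
      st_zero (by linarith) (by linarith [hi.2])]
    simp
  · rw [sp_LL_Jh T β p hp, mul_zero]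

theorem chi_LL_Jh (β : T.Bt) : T.G.oR T.χ' * T.G.SC.LL (Jh T β) = T.G.SC.LL (Jh T β) :=
  ze_LL_Jh T (by norm_num) (by norm_num) β

/-- on the tube beyond `R - 1` -/
theorem LL_Jh_tube (β : T.Bt) {p : S.sl 0} (hp : ((p : E), (0 : ℝ)) ∈ tube T.e j (T.R + -1)) :
    (T.G.SC.LL (Jh T β)).1 p = 0 := sp_LL_Jh T β p fun h => by
  obtain ⟨i, hi⟩ := mem_iUnion.1 h
  by_cases e : i = j
  · subst e; exact not_lt.2 hi.2 hp.1
  · exact tube_disj e (tube_mono (R_lt T (by norm_num)).le hp)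
      (Kh_tube (R_lt T (by norm_num)) hi.1)

theorem LL_Jh_st' (β : T.Bt) (hq : T.R + -1 < q.1) : (T.G.SC.LL (Jh T β)).1 (T.ψ j q) = 0 :=
  sp_LL_Jh T β _ fun h => by
    obtain ⟨i, hi⟩ := mem_iUnion.1 h
    have h0 : T.e.R < q.1 := (R_lt T (by norm_num)).trans hq
    by_cases e : i = j
    · subst e
      have := hi.2
      rw [st_psi T i h0, Ec.xi_psi h0] at this
      linarith
    · exact not_Kh T j e (R_lt T (by norm_num)) h0 hi.1

theorem LL_Jh_st (β : T.Bt) (hq : T.R ≤ q.1) : (T.G.SC.LL (Jh T β)).1 (T.ψ j q) = 0 :=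
  LL_Jh_st' T j β (by linarith)

theorem tau_Jh' (β : T.Bt) (hq : T.R + -1 ≤ q.1) : tau T.G (T.ψ j) (T.e.Q j) (T.e.r j) q *
    (Jh T β).1 (T.ψ j q) = dR (T.e.r j) (fun l => β (j, l)) q := by
  rw [tau_Jh T j β ((R_lt T (by norm_num)).trans_le hq), st_one (by linarith) hq]
  simp

theorem Jh_st (β : T.Bt) (hq : T.R ≤ q.1) :
    T.rS j q / T.nu j q * (Jh T β).1 (T.ψ j q) = dR (T.e.r j) (fun l => β (j, l)) q := by
  rw [← st_tau T j ((R_lt' T).trans_le hq), tau_Jh' T j β (by linarith)]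

end Crest.Agent.N250.Lp

end
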