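import Crest.Agent.N250.Po.Pol

/-!
# Row 250 (helper27): complex 2-jets in the polar chart and the linearised equation `linEL`
-/

set_option autoImplicit false
open Set Filter Topology
open scoped ContDiff

noncomputable section

namespace Crest.Agent.N250.Lp

open Po

/-- the 2-jet `(f, f_x, f_θ, f_xx, f_xθ, f_θθ)` -/
def jet (f : ℝ × ℝ → ℂ) (q : ℝ × ℝ) : Fin 6 → ℂ :=
  ![f q, d1 f q, d2 f q, d1 (d1 f) q, d1 (d2 f) q, d2 (d2 f) q]

/-- `EL` as a function of the jet -/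
def ELj (x : ℂ) (j : Fin 6 → ℂ) : ℂ := EL x (j 0) (j 1) (j 2) (j 3) (j 4) (j 5)

/-- `QQ` as a function of the jet -/
def QQj (j : Fin 6 → ℂ) : ℂ := QQ (j 0) (j 1) (j 2)

/-- the linearisation of `EL` at `v` in the direction `d` -/
def linEL (v d : ℝ × ℝ → ℂ) (q : ℝ × ℝ) : ℂ := fderiv ℂ (ELj q.1) (jet v q) (jet d q)

/-- Leibniz rule -/
def jm (a b : Fin 6 → ℂ) : Fin 6 → ℂ :=
  ![a 0 * b 0, a 0 * b 1 + a 1 * b 0, a 0 * b 2 + a 2 * b 0, a 0 * b 3 + 2 * a 1 * b 1 + a 3 * b 0,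
    a 0 * b 4 + a 1 * b 2 + a 2 * b 1 + a 4 * b 0, a 0 * b 5 + 2 * a 2 * b 2 + a 5 * b 0]

variable {f g : ℝ × ℝ → ℂ} {q : ℝ × ℝ}

@[simp] theorem jet0 : jet f q 0 = f q := rfl
@[simp] theorem jet1 : jet f q 1 = d1 f q := rfl
@[simp] theorem jet2 : jet f q 2 = d2 f q := rfl
@[simp] theorem jet3 : jet f q 3 = d1 (d1 f) q := rfl
@[simp] theorem jet4 : jet f q 4 = d1 (d2 f) q := rfl
@[simp] theorem jet5 : jet f q 5 = d2 (d2 f) q := rfl

theorem fin6 {P : Fin 6 → Prop} (h0 : P 0) (h1 : P 1) (h2 : P 2) (h3 : P 3) (h4 : P 4) (h5 : P 5)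
    (i : Fin 6) : P i := by
  fin_cases i
  exacts [h0, h1, h2, h3, h4, h5]

theorem fd_congr {G : Type} [NormedAddCommGroup G] [NormedSpace ℝ G] {f g : ℝ × ℝ → G}
    (h : f =ᶠ[𝓝 q] g) (w : ℝ × ℝ) :
    (fun y => fderiv ℝ f y w) =ᶠ[𝓝 q] fun y => fderiv ℝ g y w :=
  (h.fderiv (𝕜 := ℝ)).mono fun _ hy => by simp only [hy]

theorem jet_congr (h : f =ᶠ[𝓝 q] g) : jet f q = jet g q := by
  funext i
  induction i using fin6
  · exact h.self_of_nhds
  · exact (fd_congr h _).self_of_nhds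
  · exact (fd_congr h _).self_of_nhds
  · exact (fd_congr (fd_congr h _) _).self_of_nhds
  · exact (fd_congr (fd_congr h _) _).self_of_nhds
  · exact (fd_congr (fd_congr h _) _).self_of_nhds

theorem ev_dif {G : Type} [NormedAddCommGroup G] [NormedSpace ℝ G] {f : ℝ × ℝ → G}
    (hf : ContDiffAt ℝ 2 f q) : ∀ᶠ y in 𝓝 q, DifferentiableAt ℝ f y :=
  (hf.eventually (by simp)).mono fun _ hy => hy.differentiableAt (by simp)

theorem fd_clm {G G' : Type} [NormedAddCommGroup G] [NormedSpace ℝ G] [NormedAddCommGroup G']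
    [NormedSpace ℝ G'] (L : G →L[ℝ] G') {f : ℝ × ℝ → G} (hf : DifferentiableAt ℝ f q) (w : ℝ × ℝ) :
    fderiv ℝ (fun y => L (f y)) q w = L (fderiv ℝ f q w) := by
  exact congrArg (fun T : ℝ × ℝ →L[ℝ] G' => T w) (L.hasFDerivAt.comp q hf.hasFDerivAt).fderiv

theorem fd2_clm {G G' : Type} [NormedAddCommGroup G] [NormedSpace ℝ G] [NormedAddCommGroup G']
    [NormedSpace ℝ G'] (L : G →L[ℝ] G') {f : ℝ × ℝ → G} (hf : ContDiffAt ℝ 2 f q) (w' w : ℝ × ℝ) :
    fderiv ℝ (fun z => fderiv ℝ (fun y => L (f y)) z w) q w' =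
      L (fderiv ℝ (fun z => fderiv ℝ f z w) q w') := by
  have e : (fun z => fderiv ℝ (fun y => L (f y)) z w) =ᶠ[𝓝 q] fun z => L (fderiv ℝ f z w) :=
    (ev_dif hf).mono fun z hz => fd_clm L hz w
  rw [e.fderiv_eq, fd_clm L (diff_fd hf w)]

/-- jets of a linear image -/
theorem jet_clm {G : Type} [NormedAddCommGroup G] [NormedSpace ℝ G] (L : G →L[ℝ] ℂ)
    {f : ℝ × ℝ → G} (hf : ContDiffAt ℝ 2 f q) : jet (fun y => L (f y)) q =
      ![L (f q), L (d1 f q), L (d2 f q), L (d1 (d1 f) q), L (d1 (d2 f) q), L (d2 (d2 f) q)] := by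
  funext i
  induction i using fin6
  · rfl
  · exact fd_clm L (hf.differentiableAt (by simp)) _
  · exact fd_clm L (hf.differentiableAt (by simp)) _
  · exact fd2_clm L hf _ _
  · exact fd2_clm L hf _ _
  · exact fd2_clm L hf _ _

theorem jet_add (hf : ContDiffAt ℝ 2 f q) (hg : ContDiffAt ℝ 2 g q) :
    jet (fun y => f y + g y) q = jet f q + jet g q := by
  have h := hf.prodMk hg
  have h1 := jet_clm (ContinuousLinearMap.fst ℝ ℂ ℂ) h
  have h2 := jet_clm (ContinuousLinearMap.snd ℝ ℂ ℂ) h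
  have h3 := jet_clm (ContinuousLinearMap.fst ℝ ℂ ℂ + ContinuousLinearMap.snd ℝ ℂ ℂ) h
  refine h3.trans ?_
  change _ = jet (fun y => ContinuousLinearMap.fst ℝ ℂ ℂ (f y, g y)) q +
    jet (fun y => ContinuousLinearMap.snd ℝ ℂ ℂ (f y, g y)) q
  rw [h1, h2]
  funext i
  induction i using fin6 <;> rfl

theorem jet_smul (c : ℂ) (hf : ContDiffAt ℝ 2 f q) : jet (fun y => c * f y) q = c • jet f q := by
  refine (jet_clm (ContinuousLinearMap.mul ℝ ℂ c) hf).trans ?_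
  funext i
  induction i using fin6 <;> rfl

theorem jet_neg (hf : ContDiffAt ℝ 2 f q) : jet (fun y => -f y) q = -jet f q := by
  simpa using jet_smul (-1) hf

theorem jet_sub (hf : ContDiffAt ℝ 2 f q) (hg : ContDiffAt ℝ 2 g q) :
    jet (fun y => f y - g y) q = jet f q - jet g q := by
  simp only [sub_eq_add_neg]
  rw [jet_add hf hg.neg, jet_neg hg]

theorem jet_const (c : ℂ) : jet (fun _ => c) q = ![c, 0, 0, 0, 0, 0] := by
  funext i
  induction i using fin6 <;> simp [d1, d2, show (d1 fun _ : ℝ × ℝ => c) = fun _ => 0 from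
    funext fun _ => by simp [d1], show (d2 fun _ : ℝ × ℝ => c) = fun _ => 0 from
    funext fun _ => by simp [d2]]

theorem fd_mul (hf : DifferentiableAt ℝ f q) (hg : DifferentiableAt ℝ g q) (w : ℝ × ℝ) :
    fderiv ℝ (fun y => f y * g y) q w = f q * fderiv ℝ g q w + fderiv ℝ f q w * g q := by
  rw [fderiv_fun_mul hf hg]
  simp [mul_comm]

theorem fd2_mul (hf : ContDiffAt ℝ 2 f q) (hg : ContDiffAt ℝ 2 g q) (w' w : ℝ × ℝ) :
    fderiv ℝ (fun z => fderiv ℝ (fun y => f y * g y) z w) q w' =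
      f q * fderiv ℝ (fun z => fderiv ℝ g z w) q w' + fderiv ℝ f q w' * fderiv ℝ g q w +
        fderiv ℝ f q w * fderiv ℝ g q w' + fderiv ℝ (fun z => fderiv ℝ f z w) q w' * g q := by
  have e : (fun z => fderiv ℝ (fun y => f y * g y) z w) =ᶠ[𝓝 q]
      fun z => f z * fderiv ℝ g z w + fderiv ℝ f z w * g z := by
    filter_upwards [ev_dif hf, ev_dif hg] with z h1 h2 using fd_mul h1 h2 w
  have f1 := hf.differentiableAt (by simp)
  have g1 := hg.differentiableAt (by simp)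
  rw [e.fderiv_eq, fderiv_fun_add (f1.fun_mul (diff_fd hg w)) ((diff_fd hf w).fun_mul g1),
    add_apply, fd_mul f1 (diff_fd hg w), fd_mul (diff_fd hf w) g1]
  ring

theorem jet_mul (hf : ContDiffAt ℝ 2 f q) (hg : ContDiffAt ℝ 2 g q) :
    jet (fun y => f y * g y) q = jm (jet f q) (jet g q) := by
  have f1 := hf.differentiableAt (by simp)
  have g1 := hg.differentiableAt (by simp)
  funext i
  induction i using fin6
  · rfl
  · exact fd_mul f1 g1 _
  · exact fd_mul f1 g1 _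
  · refine (fd2_mul hf hg _ _).trans ?_
    change f q * d1 (d1 g) q + d1 f q * d1 g q + d1 f q * d1 g q + d1 (d1 f) q * g q =
      f q * d1 (d1 g) q + 2 * d1 f q * d1 g q + d1 (d1 f) q * g q
    ring
  · exact fd2_mul hf hg _ _
  · refine (fd2_mul hf hg _ _).trans ?_
    change f q * d2 (d2 g) q + d2 f q * d2 g q + d2 f q * d2 g q + d2 (d2 f) q * g q =
      f q * d2 (d2 g) q + 2 * d2 f q * d2 g q + d2 (d2 f) q * g q
    ring

/-- jets of a real function -/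
def jr (r : ℝ × ℝ → ℝ) (q : ℝ × ℝ) : Fin 6 → ℂ :=
  ![r q, (d1 r q : ℝ), (d2 r q : ℝ), (d1 (d1 r) q : ℝ), (d1 (d2 r) q : ℝ), (d2 (d2 r) q : ℝ)]

theorem jet_ofReal {r : ℝ × ℝ → ℝ} (hr : ContDiffAt ℝ 2 r q) :
    jet (fun y => (r y : ℂ)) q = jr r q := jet_clm Complex.ofRealCLM hr

theorem cd_ofReal {n : WithTop ℕ∞} {r : ℝ × ℝ → ℝ} (hr : ContDiffAt ℝ n r q) :
    ContDiffAt ℝ n (fun y => (r y : ℂ)) q := Complex.ofRealCLM.contDiff.contDiffAt.comp q hr

/-! ### differentiability of `EL` -/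

theorem diff_QQj {j : Fin 6 → ℂ} (h0 : j 0 ≠ 0) : DifferentiableAt ℂ QQj j := by
  have : (2 : ℂ) * j 0 ≠ 0 := mul_ne_zero two_ne_zero h0
  unfold QQj QQ
  fun_prop (disch := assumption)

theorem diff_ELj (x : ℂ) {j : Fin 6 → ℂ} (h0 : j 0 ≠ 0) (hQ : QQj j ≠ 0) :
    DifferentiableAt ℂ (ELj x) j := by
  have h1 : (2 : ℂ) * j 0 ≠ 0 := mul_ne_zero two_ne_zero h0
  have h2 : (2 : ℂ) * j 0 ^ 2 ≠ 0 := mul_ne_zero two_ne_zero (pow_ne_zero _ h0)
  have h3 : (4 : ℂ) * j 0 ^ 2 ≠ 0 := mul_ne_zero (by norm_num) (pow_ne_zero _ h0)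
  have h4 : (2 : ℂ) * QQ (j 0) (j 1) (j 2) ≠ 0 := mul_ne_zero two_ne_zero hQ
  have h5 : DifferentiableAt ℂ (fun j : Fin 6 → ℂ => QQ (j 0) (j 1) (j 2)) j := diff_QQj h0
  unfold ELj EL
  fun_prop (disch := assumption)

/-! ### `linEL` is linear and local -/

variable {v : ℝ × ℝ → ℂ}

theorem linEL_congr (h : f =ᶠ[𝓝 q] g) : linEL v f q = linEL v g q := by
  rw [linEL, linEL, jet_congr h]

theorem linEL_add (hf : ContDiffAt ℝ 2 f q) (hg : ContDiffAt ℝ 2 g q) :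
    linEL v (fun y => f y + g y) q = linEL v f q + linEL v g q := by
  rw [linEL, jet_add hf hg, map_add]; rfl

theorem linEL_sub (hf : ContDiffAt ℝ 2 f q) (hg : ContDiffAt ℝ 2 g q) :
    linEL v (fun y => f y - g y) q = linEL v f q - linEL v g q := by
  rw [linEL, jet_sub hf hg, map_sub]; rfl

theorem linEL_smul (c : ℂ) (hf : ContDiffAt ℝ 2 f q) :
    linEL v (fun y => c * f y) q = c * linEL v f q := by
  rw [linEL, jet_smul c hf, map_smul]; rfl

theorem linEL_zero : linEL v (fun _ => 0) q = 0 := by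
  have := linEL_smul (v := v) (q := q) 0 (contDiffAt_const (c := (0 : ℂ)))
  simpa using this

/-- `linEL` is the derivative along any curve of jets -/
theorem hasDerivAt_ELj {J : ℂ → Fin 6 → ℂ} {d : ℝ × ℝ → ℂ} {s : ℂ} (hJ : HasDerivAt J (jet d q) s)
    (h0 : J s = jet v q) (hv : v q ≠ 0) (hQ : QQj (jet v q) ≠ 0) :
    HasDerivAt (fun t => ELj q.1 (J t)) (linEL v d q) s := by
  have := (diff_ELj q.1 (j := jet v q) hv hQ).hasFDerivAt
  rw [← h0] at this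
  rw [linEL, ← h0]
  exact this.comp_hasDerivAt s hJ

/-- the derivative of a family of solutions solves the linearised equation -/
theorem linEL_eq_zero {J : ℂ → Fin 6 → ℂ} {d : ℝ × ℝ → ℂ} {s : ℂ} (hJ : HasDerivAt J (jet d q) s)
    (h0 : J s = jet v q) (hv : v q ≠ 0) (hQ : QQj (jet v q) ≠ 0)
    (he : ∀ᶠ t in 𝓝 s, ELj q.1 (J t) = 0) : linEL v d q = 0 :=
  (hasDerivAt_ELj hJ h0 hv hQ).unique ((hasDerivAt_const s (0 : ℂ)).congr_of_eventuallyEq he)

end Crest.Agent.N250.Lp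

end
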